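import Vale.Agent.P058.Kite.Main
import Vale.Agent.P058.Kite.Sym
import Vale.Agent.P058.Kite.NotSub

/-!
A finite Ramsey set that is not subtransitive.
-/

namespace Vale.Agent.Results.P058.RamseyNotSubtransitive

open Vale.Agent.P058.Kite

/-- Kites with a transcendental parameter are Ramsey and not subtransitive; in particular
there is a four-point Ramsey set that is not subtransitive, so Ramsey and subtransitive are
different properties. -/
theorem result :
    (∀ a : ℝ, Transcendental ℚ a → -1 < a → a < 1 →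
      (kite a).card = 4 ∧ IsRamsey (kite a) ∧ ¬ IsSubtransitive (kite a)) ∧
    (∃ A : Finset (EuclideanSpace ℝ (Fin 2)), A.card = 4 ∧ IsRamsey A ∧ ¬ IsSubtransitive A) ∧
    ¬ ∀ (d : ℕ) (A : Finset (EuclideanSpace ℝ (Fin d))), A.Nonempty →
      (IsRamsey A ↔ IsSubtransitive A) := by
  have key : ∀ a : ℝ, Transcendental ℚ a → -1 < a → a < 1 →
      (kite a).card = 4 ∧ IsRamsey (kite a) ∧ ¬ IsSubtransitive (kite a) := by
    intro a ha h0 h1
    refine ⟨?_, kite_isRamsey_of symmetrisation h0 h1, notSubtransitive a ha h0 h1⟩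
    have hb : 0 < Real.sqrt (1 - a ^ 2) := Real.sqrt_pos.mpr (by nlinarith)
    have hs : ∀ x y u v : ℝ, (x, y) ≠ (u, v) → (!₂[x, y] : EuclideanSpace ℝ (Fin 2)) ≠ !₂[u, v] :=
      fun x y u v h e => h (Prod.ext (by simpa using congrArg (fun z => z.ofLp 0) e)
        (by simpa using congrArg (fun z => z.ofLp 1) e))
    rw [kite, Finset.card_insert_of_notMem, Finset.card_insert_of_notMem, Finset.card_pair]
    · exact hs _ _ _ _ (by simp; linarith)
    · simp only [Finset.mem_insert, Finset.mem_singleton, not_or]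
      exact ⟨hs _ _ _ _ (by simp; intros; linarith), hs _ _ _ _ (by simp; intros; linarith)⟩
    · simp only [Finset.mem_insert, Finset.mem_singleton, not_or]
      exact ⟨hs _ _ _ _ (by simp; linarith), hs _ _ _ _ (by simp; intros; linarith),
        hs _ _ _ _ (by simp; intros; linarith)⟩
  obtain ⟨a, ha, h0, h1⟩ := exists_transcendental
  obtain ⟨hc, hR, hS⟩ := key a ha h0 h1
  refine ⟨key, ⟨kite a, hc, hR, hS⟩, fun h => hS ((h 2 (kite a) ?_).mp hR)⟩
  exact Finset.card_pos.mp (by omega)

end Vale.Agent.Results.P058.RamseyNotSubtransitive
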